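import Vale.Agent.P039.Bn.Defs
import Mathlib.LinearAlgebra.Matrix.ToLinearEquiv
import Mathlib.LinearAlgebra.Matrix.Determinant.Basic
import Mathlib.LinearAlgebra.Matrix.NonsingularInverse
import Mathlib.Tactic.Ring
import Mathlib.Tactic.Linarith

/-! P039-B, Step 1, first half: from a good matching `f` to perfect matchings of `G`. -/

namespace Vale.Agent.P039.H977

open Vale.Agent.P039.Bn Finset

variable {B W V : Type} (M : PMap B W V)

/-- `f` matches the black triangles other than `b0` with the vertices not at `b0`, and the graph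
on the vertices (those of `b0` identified) whose edges join the two other vertices of each black
triangle `≠ b0` is connected. -/
structure Good (b0 : B) (f : B → Fin 3) : Prop where
  inj : ∀ b b', b ≠ b0 → b' ≠ b0 → M.c (f b) b = M.c (f b') b' → b = b'
  off : ∀ b j, b ≠ b0 → M.c (f b) b ≠ M.c j b0
  conn : ∀ K : Set V, K.Nonempty → (∀ j, M.c j b0 ∉ K) →
    ∃ b, b ≠ b0 ∧ ¬ (M.c (f b + 1) b ∈ K ↔ M.c (f b + 2) b ∈ K)

variable {M}

theorem det_term {n : Type*} [Fintype n] [DecidableEq n] (P : Matrix n n ℚ) (h : P.det ≠ 0) :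
    ∃ σ : Equiv.Perm n, ∀ i, P (σ i) i ≠ 0 := by
  by_contra hcon
  push Not at hcon
  apply h
  rw [Matrix.det_apply]
  refine Finset.sum_eq_zero fun σ _ => ?_
  obtain ⟨i, hi⟩ := hcon σ
  have h0 : ∏ j, P (σ j) j = 0 := Finset.prod_eq_zero (Finset.mem_univ i) hi
  rw [h0, smul_zero]

theorem sum_sub [Fintype B] [DecidableEq B] {b0 : B} (F : B → ℚ) (h0 : F b0 = 0) :
    ∑ b : {b : B // b ≠ b0}, F b.1 = ∑ b, F b := by
  rw [← Finset.sum_subtype (univ.filter (fun b => b ≠ b0)) (by simp) F, Finset.sum_filter]
  refine Finset.sum_congr rfl fun b _ => ?_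
  by_cases hb : b = b0
  · rw [hb, h0]; simp
  · rw [if_pos hb]

/-- Extension by zero at `b0`. -/
theorem own_surj [Fintype B] [Fintype V] (hcard : Fintype.card V = Fintype.card B + 2)
    {b0 : B} {f : B → Fin 3} (hg : Good M b0 f) (v : V) (hv : ∀ j, v ≠ M.c j b0) :
    ∃ b, b ≠ b0 ∧ M.c (f b) b = v := by
  classical
  set S : Finset B := univ.filter (fun b => b ≠ b0) with hS
  set R : Finset V := univ.image (fun j => M.c j b0) with hR
  have hRc : R.card = 3 := by
    rw [hR, Finset.card_image_of_injective _ (fun i j h => M.cls _ _ _ _ h)]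
    simp
  have hSc : S.card = Fintype.card B - 1 := by
    rw [hS, Finset.filter_ne', Finset.card_erase_of_mem (Finset.mem_univ _)]
    rfl
  have hpos : 0 < Fintype.card B := Fintype.card_pos_iff.2 ⟨b0⟩
  have hinj : Set.InjOn (fun b => M.c (f b) b) S := by
    intro a ha b hb h
    simp only [hS, coe_filter, mem_univ, true_and, Set.mem_ofPred_eq] at ha hb
    exact hg.inj a b ha hb h
  have hsub : S.image (fun b => M.c (f b) b) ⊆ Rᶜ := by
    intro x hx
    rw [Finset.mem_image] at hx
    obtain ⟨b, hb, rfl⟩ := hx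
    rw [Finset.mem_compl, hR, Finset.mem_image]
    rintro ⟨j, _, hj⟩
    exact hg.off b j (by simpa [hS] using hb) hj.symm
  have heq : S.image (fun b => M.c (f b) b) = Rᶜ := by
    apply Finset.eq_of_subset_of_card_le hsub
    rw [Finset.card_image_of_injOn hinj, Finset.card_compl, hRc, hSc, hcard]
    omega
  have hmem : v ∈ Rᶜ := by
    rw [Finset.mem_compl, hR, Finset.mem_image]
    rintro ⟨j, _, hj⟩
    exact hv j hj.symm
  rw [← heq, Finset.mem_image] at hmem
  obtain ⟨b, hb, h⟩ := hmem
  exact ⟨b, by simpa [hS] using hb, h⟩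

/-- The sum of a boundary around a vertex. -/
theorem div_zero [Fintype B] [DecidableEq V] (n : W → ℚ) (j : Fin 3) (v : V) :
    ∑ b ∈ univ.filter (fun b => M.c j b = v), (n (M.e (j + 1) b) - n (M.e (j + 2) b)) = 0 := by
  rw [Finset.sum_sub_distrib, sub_eq_zero]
  symm
  refine Finset.sum_bij (fun b _ => M.rho j b) ?_ ?_ ?_ ?_
  · intro b hb
    simp only [mem_filter, mem_univ, true_and] at hb ⊢
    rw [M.c_rho]; exact hb
  · intro a _ b _ h
    exact (M.rho j).injective h
  · intro b hb
    refine ⟨(M.rho j).symm b, ?_, by simp⟩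
    simp only [mem_filter, mem_univ, true_and] at hb ⊢
    rw [M.c_rho_symm]; exact hb
  · intro b _
    rw [M.e_rho]

/-- A function on the white triangles whose boundary vanishes is constant. -/
theorem const_of_bd [Finite B] (hc : M.Conn) {α : Type*} (n : W → α)
    (h : ∀ b j, n (M.e (j + 1) b) = n (M.e (j + 2) b)) (w w' : W) : n w = n w' := by
  have h1 : ∀ b i j, n (M.e i b) = n (M.e j b) := by
    intro b i j
    have h0 := h b 0
    have h1 := h b 1
    have h2 := h b 2
    fin_cases i <;> fin_cases j <;> simp_all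
  have h2 : ∀ b b', n (M.e 0 b) = n (M.e 0 b') := by
    intro b b'
    induction hc b b' with
    | rel x y hxy =>
      obtain ⟨j, hj⟩ := hxy
      obtain ⟨k, rfl⟩ := (M.same_iff j x y).1 hj
      clear hj
      induction k with
      | zero => rfl
      | succ k ih =>
        rw [ih, pow_succ', Equiv.Perm.mul_apply, h1 _ 0 (j + 2), ← M.e_rho, h1 _ (j + 1) 0]
    | refl x => rfl
    | symm x y _ ih => exact ih.symm
    | trans x y z _ _ ih1 ih2 => exact ih1.trans ih2
  have h3 := h2 ((M.e 0).symm w) ((M.e 0).symm w')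
  simpa using h3

/-- The vertex at the corner `(b, j)` of the triangulation is determined by the class. -/
theorem cls' {j j' : Fin 3} {b b' : B} (h : M.c j b = M.c j' b') : j = j' := M.cls _ _ _ _ h

theorem exists_match [Fintype B] (hc : M.Conn) {b0 : B} {f : B → Fin 3} (hg : Good M b0 f)
    (i : Fin 3) :
    ∃ m : B → Fin 3, m b0 = i ∧ (∀ b, b ≠ b0 → m b ≠ f b) ∧
      Function.Bijective (fun b => M.e (m b) b) := by
  classical
  let B' := {b : B // b ≠ b0}
  let own : B' → V := fun b => M.c (f b.1) b.1
  have own_inj : Function.Injective own := fun a b h => Subtype.ext (hg.inj _ _ a.2 b.2 h)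
  -- the matrix of the faces
  let Q : Matrix B' B' ℚ := fun b b' =>
    (if M.c (f b.1 + 1) b.1 = own b' then 1 else 0) - (if M.c (f b.1 + 2) b.1 = own b' then 1 else 0)
  have hQ : Q.det ≠ 0 := by
    intro hdet
    obtain ⟨y, hy0, hy⟩ := Matrix.exists_mulVec_eq_zero_iff.2 hdet
    -- extend to the vertices
    let z : V → ℚ := fun v => ∑ b' : B', if own b' = v then y b' else 0
    have hz1 : ∀ b', z (own b') = y b' := by
      intro b'
      simp only [z]
      rw [Finset.sum_eq_single b']
      · simp
      · intro a _ hab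
        rw [if_neg (fun h => hab (own_inj h))]
      · intro h; exact absurd (Finset.mem_univ _) h
    have hz2 : ∀ j, z (M.c j b0) = 0 := by
      intro j
      apply Finset.sum_eq_zero
      intro b' _
      rw [if_neg (hg.off b'.1 j b'.2)]
    have hz3 : ∀ b, b ≠ b0 → z (M.c (f b + 1) b) = z (M.c (f b + 2) b) := by
      intro b hb
      have h := congrFun hy ⟨b, hb⟩
      simp only [Matrix.mulVec, dotProduct, Q, sub_mul, ite_mul, one_mul, zero_mul,
        Finset.sum_sub_distrib, Pi.zero_apply] at h
      have h' := sub_eq_zero.1 h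
      simp only [z]
      calc _ = ∑ x : B', if M.c (f b + 1) b = own x then y x else 0 :=
            Finset.sum_congr rfl fun x _ => by simp only [eq_comm]
        _ = _ := h'
        _ = _ := Finset.sum_congr rfl fun x _ => by simp only [eq_comm]
    obtain ⟨b1, hb1⟩ := Function.ne_iff.1 hy0
    obtain ⟨b, hb, hne⟩ := hg.conn {v | z v ≠ 0} ⟨own b1, by
      show z (own b1) ≠ 0
      rw [hz1]; exact hb1⟩ (fun j h => h (hz2 j))
    apply hne
    simp only [Set.mem_ofPred_eq]
    rw [hz3 b hb]
  -- the matrix of the white triangles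
  let P : Matrix B' B' ℚ := fun b b' =>
    (if M.e (f b.1 + 1) b.1 = M.e i b'.1 then 1 else 0) -
      (if M.e (f b.1 + 2) b.1 = M.e i b'.1 then 1 else 0)
  have hP : P.det ≠ 0 := by
    intro hdet
    obtain ⟨y, hy0, hy⟩ := Matrix.exists_mulVec_eq_zero_iff.2 hdet
    let n : W → ℚ := fun w => ∑ b' : B', if M.e i b'.1 = w then y b' else 0
    have hn1 : ∀ b' : B', n (M.e i b'.1) = y b' := by
      intro b'
      simp only [n]
      rw [Finset.sum_eq_single b']
      · simp
      · intro a _ hab
        rw [if_neg (fun h => hab (Subtype.ext ((M.e i).injective h)))]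
      · intro h; exact absurd (Finset.mem_univ _) h
    have hn2 : n (M.e i b0) = 0 := by
      apply Finset.sum_eq_zero
      intro b' _
      rw [if_neg (fun h => b'.2 ((M.e i).injective h))]
    have hn3 : ∀ b, b ≠ b0 → n (M.e (f b + 1) b) = n (M.e (f b + 2) b) := by
      intro b hb
      have h := congrFun hy ⟨b, hb⟩
      simp only [Matrix.mulVec, dotProduct, P, sub_mul, ite_mul, one_mul, zero_mul,
        Finset.sum_sub_distrib, Pi.zero_apply] at h
      have h' := sub_eq_zero.1 h
      simp only [n]
      calc _ = ∑ x : B', if M.e (f b + 1) b = M.e i x.1 then y x else 0 :=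
            Finset.sum_congr rfl fun x _ => by simp only [eq_comm]
        _ = _ := h'
        _ = _ := Finset.sum_congr rfl fun x _ => by simp only [eq_comm]
    -- the boundary of n
    let x : B → Fin 3 → ℚ := fun b j => n (M.e (j + 1) b) - n (M.e (j + 2) b)
    have hx0 : ∀ b, b ≠ b0 → x b (f b) = 0 := fun b hb => sub_eq_zero.2 (hn3 b hb)
    have hx1 : ∀ b, x b (f b + 2) + x b (f b + 1) = - x b (f b) := by
      intro b
      simp only [x, f11, f12, f21, f22]
      ring
    let yy : B' → ℚ := fun b => x b.1 (f b.1 + 1)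
    have hyy2 : ∀ b : B', x b.1 (f b.1 + 2) = - yy b := by
      intro b
      have := hx1 b.1
      rw [hx0 b.1 b.2] at this
      simp only [yy]; linarith
    have hyQ : Matrix.vecMul yy Q = 0 := by
      funext b'
      simp only [Matrix.vecMul, dotProduct, Q, Pi.zero_apply]
      set v := own b' with hv
      set j := f b'.1 with hj
      have hd := div_zero (M := M) n j v
      have hsum : ∑ b ∈ univ.filter (fun b => M.c j b = v), x b j =
          ∑ b : B', yy b * ((if M.c (f b.1 + 1) b.1 = v then 1 else 0) -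
            (if M.c (f b.1 + 2) b.1 = v then 1 else 0)) := by
        rw [Finset.sum_filter]
        have hsub : ∑ b : B', (if M.c j b.1 = v then x b.1 j else 0) =
            ∑ b, (if M.c j b = v then x b j else 0) := by
          apply sum_sub (fun b => if M.c j b = v then x b j else 0)
          rw [if_neg]
          intro h
          exact hg.off b'.1 j b'.2 h.symm
        rw [← hsub]
        refine Finset.sum_congr rfl fun b _ => ?_
        have hcl : ∀ k : Fin 3, M.c k b.1 = v → k = j := fun k hk => M.cls _ _ _ _ hk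
        rcases fcase j (f b.1) with h | h | h
        · rw [if_neg (fun e => fne1 (f b.1) ((hcl _ e).trans h)),
            if_neg (fun e => fne2 (f b.1) ((hcl _ e).trans h)), h, hx0 b.1 b.2]
          simp
        · rw [h, if_neg (fun e => fne21 (f b.1) ((hcl _ e).trans h))]
          by_cases e : M.c (f b.1 + 1) b.1 = v
          · rw [if_pos e, if_pos e]; simp [yy]
          · rw [if_neg e, if_neg e]; simp
        · rw [h, if_neg (fun e => fne12 (f b.1) ((hcl _ e).trans h))]
          by_cases e : M.c (f b.1 + 2) b.1 = v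
          · rw [if_pos e, if_pos e, hyy2 b]; ring
          · rw [if_neg e, if_neg e]; simp
      rw [← hsum]; exact hd
    have hyy0 : yy = 0 := by
      by_contra hne
      exact hQ (Matrix.exists_vecMul_eq_zero_iff.1 ⟨yy, hne, hyQ⟩)
    have hx' : ∀ b, b ≠ b0 → ∀ j, x b j = 0 := by
      intro b hb j
      have h1 : x b (f b + 1) = 0 := congrFun hyy0 ⟨b, hb⟩
      rcases fcase j (f b) with h | h | h
      · rw [h]; exact hx0 b hb
      · rw [h]; exact h1
      · rw [h]
        have := hyy2 ⟨b, hb⟩
        simp only [yy] at this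
        rw [this, h1, neg_zero]
    have hx : ∀ b j, x b j = 0 := by
      intro b j
      by_cases hb : b = b0
      · rw [hb]
        have hd := div_zero (M := M) n j (M.c j b0)
        rw [Finset.sum_eq_single b0] at hd
        · exact hd
        · intro b _ hb'
          exact hx' b hb' j
        · intro h
          exact absurd (by simp) h
      · exact hx' b hb j
    have hconst := const_of_bd hc n (fun b j => sub_eq_zero.1 (hx b j))
    apply hy0
    funext b'
    rw [← hn1, hconst _ (M.e i b0), hn2]
    rfl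
  obtain ⟨σ, hσ⟩ := det_term P hP
  have key : ∀ b (hb : b ≠ b0), ∃ k : Fin 3, k ≠ f b ∧
      M.e k b = M.e i (σ.symm ⟨b, hb⟩).1 := by
    intro b hb
    have h := hσ (σ.symm ⟨b, hb⟩)
    rw [Equiv.apply_symm_apply] at h
    simp only [P] at h
    by_cases h1 : M.e (f b + 1) b = M.e i (σ.symm ⟨b, hb⟩).1
    · exact ⟨f b + 1, fne1 _, h1⟩
    · by_cases h2 : M.e (f b + 2) b = M.e i (σ.symm ⟨b, hb⟩).1
      · exact ⟨f b + 2, fne2 _, h2⟩
      · rw [if_neg h1, if_neg h2] at h
        exact absurd (sub_self _) h
  choose k hk1 hk2 using key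
  let m : B → Fin 3 := fun b => if hb : b = b0 then i else k b hb
  have hm0 : m b0 = i := by simp [m]
  have hm : ∀ b (hb : b ≠ b0), m b = k b hb := fun b hb => by simp only [m, dif_neg hb]
  refine ⟨m, hm0, fun b hb => by rw [hm b hb]; exact hk1 b hb, ?_⟩
  have : Fintype W := Fintype.ofEquiv B (M.e 0)
  refine (Fintype.bijective_iff_injective_and_card _).2 ⟨?_, Fintype.card_congr (M.e 0)⟩
  intro a b hab
  simp only at hab
  by_cases ha : a = b0
  · by_cases hb : b = b0
    · rw [ha, hb]
    · rw [ha, hm0, hm b hb, hk2 b hb] at hab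
      exact absurd ((M.e i).injective hab).symm (σ.symm ⟨b, hb⟩).2
  · by_cases hb : b = b0
    · rw [hb, hm0, hm a ha, hk2 a ha] at hab
      exact absurd ((M.e i).injective hab) (σ.symm ⟨a, ha⟩).2
    · rw [hm a ha, hm b hb, hk2 a ha, hk2 b hb] at hab
      have := σ.symm.injective (Subtype.ext ((M.e i).injective hab))
      exact congrArg Subtype.val this

end Vale.Agent.P039.H977
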