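import Vale.Agent.P039.H977.Good
import Vale.Agent.P039.H551.Ham
import Vale.Agent.P039.Bz.Stmt

/-! `Bz.HamStmt`: a good matching gives, for each edge at the root, a Hamiltonian cycle which avoids
it. -/

namespace Vale.Agent.P039.H977

open Vale.Agent.P039.Bn Finset

variable {B W V : Type}

/-- the web of a `PMap` -/
def toWeb (M : PMap B W V) : Sk.Web B W := ⟨M.e⟩

/-- the labelling of its faces -/
def toLab (M : PMap B W V) : Sk.Lab (toWeb M) V := ⟨M.c, M.step, M.exact, M.cls, M.surj⟩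

theorem gc_of_conn [Finite B] {M : PMap B W V} (hc : M.Conn) : H551.GC (toWeb M) := by
  intro S T hST ⟨b1, hb1⟩ b
  have hS : ∀ b j, b ∈ S ↔ M.e j b ∈ T := hST
  have h2 : ∀ b b', Relation.EqvGen (fun x y => ∃ j, M.c j x = M.c j y) b b' →
      (b ∈ S ↔ b' ∈ S) := by
    intro b b' h
    induction h with
    | rel x y hxy =>
      obtain ⟨j, hj⟩ := hxy
      obtain ⟨k, rfl⟩ := (M.same_iff j x y).1 hj
      clear hj
      induction k with
      | zero => rfl
      | succ k ih =>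
        rw [ih, pow_succ', Equiv.Perm.mul_apply, hS _ (j + 2), ← M.e_rho, ← hS]
    | refl x => rfl
    | symm x y _ ih => exact ih.symm
    | trans x y z _ _ ih1 ih2 => exact ih1.trans ih2
  exact (h2 b1 b (hc b1 b)).1 hb1

/-- From the frozen interface to `Good`. -/
theorem good_of {M : PMap B W V} {b₀ : B} {f : Bz.BOff b₀ → Fin 3}
    (hm : Bz.Mat (Bz.Fo M b₀) f) (hg : Bz.Good (Bz.Fo M b₀) f) (F : B → Fin 3)
    (hF : ∀ b : Bz.BOff b₀, F b.1 = f b) : Good M b₀ F := by
  classical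
  obtain ⟨φ, hφ⟩ := hm
  have key : ∀ b : Bz.BOff b₀, ∃ h : ∀ i, M.c i b₀ ≠ M.c (f b) b.1,
      (⟨M.c (f b) b.1, h⟩ : Bz.VOff M b₀) = φ b := by
    intro b
    have h := hφ b
    unfold Bz.Fo at h
    split_ifs at h with hj
    exact ⟨hj, Option.some.inj h⟩
  refine ⟨?_, ?_, ?_⟩
  · intro b b' hb hb' h
    obtain ⟨h1, h2⟩ := key ⟨b, hb⟩
    obtain ⟨h3, h4⟩ := key ⟨b', hb'⟩
    have e1 := hF ⟨b, hb⟩
    have e2 := hF ⟨b', hb'⟩
    simp only at e1 e2
    rw [e1, e2] at h
    have : φ ⟨b, hb⟩ = φ ⟨b', hb'⟩ := by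
      rw [← h2, ← h4]
      exact Subtype.ext h
    exact congrArg Subtype.val (φ.injective this)
  · intro b j hb
    obtain ⟨h1, h2⟩ := key ⟨b, hb⟩
    have e1 := hF ⟨b, hb⟩
    simp only at e1
    rw [e1]
    exact (h1 j).symm
  · intro K hK hK0
    obtain ⟨v1, hv1⟩ := hK
    have hv1' : ∀ j, M.c j b₀ ≠ v1 := fun j h => hK0 j (h ▸ hv1)
    obtain ⟨b, i, j, hi, hj, ⟨v, hv, hvF⟩, hno⟩ := hg {v | v.1 ∈ K} ⟨⟨v1, hv1'⟩, hv1⟩
    refine ⟨b.1, b.2, ?_⟩
    have h1 : M.c i b.1 ∈ K := by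
      unfold Bz.Fo at hvF
      split_ifs at hvF with h
      rw [← Option.some.inj hvF] at hv
      exact hv
    have h2 : M.c j b.1 ∉ K := by
      intro h
      have hr : ∀ i, M.c i b₀ ≠ M.c j b.1 := fun i e => hK0 i (by rw [e]; exact h)
      apply hno ⟨M.c j b.1, hr⟩ h
      unfold Bz.Fo
      rw [dif_pos hr]
    rw [hF b]
    intro hiff
    rcases fcase i (f b) with h | h | h
    · exact hi h
    · rcases fcase j (f b) with h' | h' | h'
      · exact hj h'
      · rw [h] at h1; rw [h'] at h2; exact h2 h1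
      · rw [h] at h1; rw [h'] at h2; exact h2 (hiff.1 h1)
    · rcases fcase j (f b) with h' | h' | h'
      · exact hj h'
      · rw [h] at h1; rw [h'] at h2; exact h2 (hiff.2 h1)
      · rw [h] at h1; rw [h'] at h2; exact h2 h1

theorem hamStmt : Bz.HamStmt := by
  classical
  intro B W V _ _ _ M hM b₀ f hm hg i
  let F : B → Fin 3 := fun b => if h : b ≠ b₀ then f ⟨b, h⟩ else i + 1
  have hF : ∀ b : Bz.BOff b₀, F b.1 = f b := fun b => by simp only [F, dif_pos b.2]
  have hF0 : F b₀ = i + 1 := by simp [F]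
  have hgood := good_of hm hg F hF
  obtain ⟨m, hm0, hmF, hbij⟩ := exists_match hM.conn hgood i
  refine ⟨m, ⟨hbij, ?_⟩, hm0⟩
  -- the owner of the matching edge at `b` is the face of class `F b`
  have hmF' : ∀ b, F b ≠ m b := by
    intro b
    by_cases hb : b = b₀
    · rw [hb, hF0, hm0]; exact fne1 i
    · exact (hmF b hb).symm
  refine H551.ham_of_own (toLab M) (gc_of_conn hM.conn) m hbij (fun b => M.c (F b) b) ?_
    (fun b => ⟨F b, hmF' b, rfl⟩) b₀ (M.c i b₀) (M.c (i + 2) b₀) ?_ ⟨i, rfl⟩ ⟨i + 2, rfl⟩ ?_ ?_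
  · intro a b hab
    simp only at hab
    by_cases ha : a = b₀
    · by_cases hb : b = b₀
      · rw [ha, hb]
      · rw [ha] at hab
        exact absurd hab.symm (hgood.off b _ hb)
    · by_cases hb : b = b₀
      · rw [hb] at hab
        exact absurd hab (hgood.off a _ ha)
      · exact hgood.inj a b ha hb hab
  · intro h
    exact fne2 i (M.cls _ _ _ _ h).symm
  · intro b h
    by_cases hb : b = b₀
    · rw [hb, hF0] at h
      exact fne1 i (M.cls _ _ _ _ h)
    · exact hgood.off b _ hb h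
  · intro b h
    by_cases hb : b = b₀
    · rw [hb, hF0] at h
      exact fne12 i (M.cls _ _ _ _ h)
    · exact hgood.off b _ hb h

end Vale.Agent.P039.H977

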